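import Vale.Agent.P146.Gauss

set_option linter.all false

/-!
# P146, Lt: Prekopa-Leindler inequality for the standard Gaussian measure
-/

open MeasureTheory ProbabilityTheory Set
open scoped ENNReal NNReal Pointwise

namespace Vale.Agent.P146.Lt

/-! ### One-dimensional Prekopa-Leindler (copy of P227/PL.lean) -/

/-- One-dimensional Brunn-Minkowski, compact case. -/
theorem bm_one_compact {A B C : Set ℝ} {s t : ℝ} (hs : 0 < s) (ht : 0 < t)
    (hA : IsCompact A) (hB : IsCompact B)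
    (nA : A.Nonempty) (nB : B.Nonempty) (h : ∀ a ∈ A, ∀ b ∈ B, s * a + t * b ∈ C) :
    ENNReal.ofReal s * volume A + ENNReal.ofReal t * volume B ≤ volume C := by
  obtain ⟨a, haA, ha⟩ := hA.exists_isGreatest nA
  obtain ⟨b, hbB, hb⟩ := hB.exists_isLeast nB
  have h1 : (fun x => x + t * b) '' (s • A) ⊆ C := by
    rintro _ ⟨_, ⟨x, hx, rfl⟩, rfl⟩
    exact h x hx b hbB
  have h2 : (fun y => s * a + y) '' (t • B) ⊆ C := by
    rintro _ ⟨_, ⟨y, hy, rfl⟩, rfl⟩
    exact h a haA y hy
  have c1 : IsCompact ((fun x => x + t * b) '' (s • A)) := (hA.smul s).image (by fun_prop)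
  have c2 : IsCompact ((fun y => s * a + y) '' (t • B)) := (hB.smul t).image (by fun_prop)
  have hdis : AEDisjoint volume ((fun x => x + t * b) '' (s • A))
      ((fun y => s * a + y) '' (t • B)) := by
    have : ((fun x => x + t * b) '' (s • A)) ∩ ((fun y => s * a + y) '' (t • B)) ⊆
        {s * a + t * b} := by
      rintro _ ⟨⟨_, ⟨x, hx, rfl⟩, rfl⟩, ⟨_, ⟨y, hy, rfl⟩, hxy⟩⟩
      have hx' := ha hx
      have hy' := hb hy
      simp only [smul_eq_mul] at hxy
      simp only [mem_singleton_iff, smul_eq_mul]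
      have e1 : s * x ≤ s * a := by gcongr
      have e2 : t * b ≤ t * y := by gcongr
      linarith
    exact measure_mono_null this (by simp)
  have v1 : volume ((fun x => x + t * b) '' (s • A)) = ENNReal.ofReal s * volume A := by
    rw [image_add_right, measure_preimage_add_right, Measure.addHaar_smul]
    simp [abs_of_pos hs]
  have v2 : volume ((fun y => s * a + y) '' (t • B)) = ENNReal.ofReal t * volume B := by
    rw [image_add_left, measure_preimage_add, Measure.addHaar_smul]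
    simp [abs_of_pos ht]
  calc ENNReal.ofReal s * volume A + ENNReal.ofReal t * volume B
      = volume ((fun x => x + t * b) '' (s • A)) + volume ((fun y => s * a + y) '' (t • B)) := by
        rw [v1, v2]
    _ = volume (((fun x => x + t * b) '' (s • A)) ∪ ((fun y => s * a + y) '' (t • B))) := by
        rw [measure_union₀ c2.measurableSet.nullMeasurableSet hdis]
    _ ≤ volume C := measure_mono (union_subset h1 h2)

/-- One-dimensional Brunn-Minkowski. -/
theorem bm_one {A B C : Set ℝ} {s t : ℝ} (hs : 0 < s) (ht : 0 < t)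
    (hA : MeasurableSet A) (hB : MeasurableSet B)
    (nA : A.Nonempty) (nB : B.Nonempty) (h : ∀ a ∈ A, ∀ b ∈ B, s * a + t * b ∈ C) :
    ENNReal.ofReal s * volume A + ENNReal.ofReal t * volume B ≤ volume C := by
  have hs0 : ENNReal.ofReal s ≠ 0 := by simpa using hs
  have ht0 : ENNReal.ofReal t ≠ 0 := by simpa using ht
  have key : ∀ K L : Set ℝ, IsCompact K → IsCompact L → K ⊆ A → L ⊆ B →
      ENNReal.ofReal s * volume K + ENNReal.ofReal t * volume L ≤ volume C := by
    intro K L hK hL hKA hLB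
    obtain ⟨a0, ha0⟩ := nA
    obtain ⟨b0, hb0⟩ := nB
    have hK' : IsCompact (K ∪ {a0}) := hK.union isCompact_singleton
    have hL' : IsCompact (L ∪ {b0}) := hL.union isCompact_singleton
    have := bm_one_compact hs ht hK' hL' ⟨a0, by simp⟩ ⟨b0, by simp⟩ (C := C) (by
      intro a ha b hb
      apply h
      · rcases ha with ha | ha
        · exact hKA ha
        · rw [mem_singleton_iff.mp ha]; exact ha0
      · rcases hb with hb | hb
        · exact hLB hb
        · rw [mem_singleton_iff.mp hb]; exact hb0)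
    refine le_trans (add_le_add ?_ ?_) this
    · gcongr; exact subset_union_left
    · gcongr; exact subset_union_left
  have key1 : ∀ K : Set ℝ, IsCompact K → K ⊆ A →
      ENNReal.ofReal s * volume K + ENNReal.ofReal t * volume B ≤ volume C := by
    intro K hK hKA
    have : volume B = ⨆ (L) (_ : L ⊆ B) (_ : IsCompact L), volume L := hB.measure_eq_iSup_isCompact _
    rw [this]
    simp_rw [ENNReal.mul_iSup]
    by_cases htop : volume C = ∞
    · rw [htop]; exact le_top
    have hKfin : ENNReal.ofReal s * volume K ≠ ∞ :=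
      ENNReal.mul_ne_top ENNReal.ofReal_ne_top hK.measure_lt_top.ne
    have h0 : ENNReal.ofReal s * volume K ≤ volume C := by
      simpa using key K ∅ hK isCompact_empty hKA (empty_subset _)
    refine le_trans (add_le_add_right (?_ : _ ≤ volume C - ENNReal.ofReal s * volume K) _) ?_
    · refine iSup_le fun L => iSup_le fun hL => iSup_le fun hLc => ?_
      exact ENNReal.le_sub_of_add_le_left hKfin (key K L hK hLc hKA hL)
    · rw [add_tsub_cancel_of_le h0]
  by_cases htop : volume C = ∞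
  · rw [htop]; exact le_top
  have h0 : ENNReal.ofReal t * volume B ≤ volume C := by
    simpa using key1 ∅ isCompact_empty (empty_subset _)
  have hBfin : ENNReal.ofReal t * volume B ≠ ∞ := ne_top_of_le_ne_top htop h0
  have : volume A = ⨆ (L) (_ : L ⊆ A) (_ : IsCompact L), volume L := hA.measure_eq_iSup_isCompact _
  rw [this]
  simp_rw [ENNReal.mul_iSup]
  refine le_trans (add_le_add_left (?_ : _ ≤ volume C - ENNReal.ofReal t * volume B) _) ?_
  · refine iSup_le fun L => iSup_le fun hL => iSup_le fun hLc => ?_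
    exact ENNReal.le_sub_of_add_le_right hBfin (key1 L hLc hL)
  · rw [tsub_add_cancel_of_le h0]


/-- Normalised one-dimensional Prekopa-Leindler. -/
theorem pl_one_normalized {s t : ℝ} (hs : 0 < s) (ht : 0 < t) (hst : s + t = 1)
    (f g h : ℝ → ℝ≥0∞) (hf : Measurable f) (hg : Measurable g)
    (hh : Measurable h) (hf1 : ⨆ x, f x = 1) (hg1 : ⨆ x, g x = 1)
    (hfg : ∀ x y, f x ^ s * g y ^ t ≤ h (s * x + t * y)) :
    ENNReal.ofReal s * (∫⁻ x, f x) + ENNReal.ofReal t * (∫⁻ x, g x) ≤ ∫⁻ x, h x := by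
  have hfle : ∀ x, f x ≤ 1 := fun x => hf1 ▸ le_iSup f x
  have hgle : ∀ x, g x ≤ 1 := fun x => hg1 ▸ le_iSup g x
  set k : ℝ → ℝ≥0∞ := fun x => min (h x) 1 with hk
  have hkm : Measurable k := hh.min measurable_const
  have hk1 : ∀ x, k x ≤ 1 := fun x => min_le_right _ _
  have hfgk : ∀ x y, f x ^ s * g y ^ t ≤ k (s * x + t * y) := by
    intro x y
    have h1 : f x ^ s * g y ^ t ≤ 1 := by
      calc f x ^ s * g y ^ t ≤ 1 * 1 :=
            mul_le_mul' (ENNReal.rpow_le_one (hfle x) hs.le) (ENNReal.rpow_le_one (hgle y) ht.le)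
        _ = 1 := by simp
    simp only [hk]
    exact le_min (hfg x y) h1
  have hcake : ∀ u : ℝ → ℝ≥0∞, Measurable u → (∀ x, u x ≤ 1) →
      ∫⁻ x, u x = ∫⁻ r in Ioi (0 : ℝ), volume {x | r < (u x).toReal} := by
    intro u hu hu1
    rw [← lintegral_eq_lintegral_meas_lt volume (Filter.Eventually.of_forall fun x => by
      simp) hu.ennreal_toReal.aemeasurable]
    apply lintegral_congr
    intro x
    rw [ENNReal.ofReal_toReal (ne_top_of_le_ne_top ENNReal.one_ne_top (hu1 x))]
  have hkh : ∫⁻ x, k x ≤ ∫⁻ x, h x := lintegral_mono fun x => min_le_left _ _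
  refine le_trans ?_ hkh
  rw [hcake f hf hfle, hcake g hg hgle, hcake k hkm hk1]
  have hmeas : ∀ u : ℝ → ℝ≥0∞, Measurable (fun r : ℝ => volume {x | r < (u x).toReal}) := by
    intro u
    apply Antitone.measurable
    intro a b hab
    exact measure_mono fun x hx => lt_of_le_of_lt hab hx
  rw [← lintegral_const_mul _ (hmeas f), ← lintegral_const_mul _ (hmeas g),
    ← lintegral_add_left ((hmeas f).const_mul _)]
  refine setLIntegral_mono' measurableSet_Ioi ?_
  intro r hr
  have hr0 : 0 < r := hr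
  rcases lt_or_ge r 1 with hr1 | hr1
  · apply bm_one hs ht
    · exact measurableSet_lt measurable_const hf.ennreal_toReal
    · exact measurableSet_lt measurable_const hg.ennreal_toReal
    · have : ENNReal.ofReal r < ⨆ x, f x := by
        rw [hf1]
        rw [← ENNReal.ofReal_one]
        exact (ENNReal.ofReal_lt_ofReal_iff one_pos).2 hr1
      obtain ⟨x, hx⟩ := lt_iSup_iff.1 this
      refine ⟨x, ?_⟩
      exact (ENNReal.ofReal_lt_iff_lt_toReal hr0.le
        (ne_top_of_le_ne_top ENNReal.one_ne_top (hfle x))).1 hx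
    · have : ENNReal.ofReal r < ⨆ x, g x := by
        rw [hg1]
        rw [← ENNReal.ofReal_one]
        exact (ENNReal.ofReal_lt_ofReal_iff one_pos).2 hr1
      obtain ⟨x, hx⟩ := lt_iSup_iff.1 this
      refine ⟨x, ?_⟩
      exact (ENNReal.ofReal_lt_iff_lt_toReal hr0.le
        (ne_top_of_le_ne_top ENNReal.one_ne_top (hgle x))).1 hx
    · intro a ha b hb
      simp only [mem_ofPred_eq] at ha hb ⊢
      have h3 := ENNReal.toReal_mono (ne_top_of_le_ne_top ENNReal.one_ne_top (hk1 _)) (hfgk a b)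
      rw [ENNReal.toReal_mul, ← ENNReal.toReal_rpow, ← ENNReal.toReal_rpow] at h3
      have h4 : r < (k (s * a + t * b)).toReal := by
        calc r = r ^ s * r ^ t := by
              rw [← Real.rpow_add hr0, hst, Real.rpow_one]
          _ < (f a).toReal ^ s * (g b).toReal ^ t := by
            apply mul_lt_mul''
            · exact Real.rpow_lt_rpow hr0.le ha hs
            · exact Real.rpow_lt_rpow hr0.le hb ht
            · positivity
            · positivity
          _ ≤ _ := h3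
      exact h4
  · have e1 : {x | r < (f x).toReal} = ∅ := by
      ext x
      simp only [mem_ofPred_eq, mem_empty_iff_false, iff_false, not_lt]
      refine le_trans ?_ hr1
      have := ENNReal.toReal_mono ENNReal.one_ne_top (hfle x)
      simpa using this
    have e2 : {x | r < (g x).toReal} = ∅ := by
      ext x
      simp only [mem_ofPred_eq, mem_empty_iff_false, iff_false, not_lt]
      refine le_trans ?_ hr1
      have := ENNReal.toReal_mono ENNReal.one_ne_top (hgle x)
      simpa using this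
    rw [e1, e2]
    simp

theorem ennreal_amgm {s t : ℝ} (hs : 0 < s) (ht : 0 < t) (hst : s + t = 1) (x y : ℝ≥0∞) :
    x ^ s * y ^ t ≤ ENNReal.ofReal s * x + ENNReal.ofReal t * y := by
  have hs0 : ENNReal.ofReal s ≠ 0 := by simpa using hs
  have ht0 : ENNReal.ofReal t ≠ 0 := by simpa using ht
  by_cases hx : x = ∞
  · subst hx; simp [ENNReal.mul_top hs0]
  by_cases hy : y = ∞
  · subst hy; simp [ENNReal.mul_top ht0]
  lift x to ℝ≥0 using hx
  lift y to ℝ≥0 using hy
  have := NNReal.geom_mean_le_arith_mean2_weighted s.toNNReal t.toNNReal x y (by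
    rw [← Real.toNNReal_add hs.le ht.le, hst, Real.toNNReal_one])
  rw [Real.coe_toNNReal s hs.le, Real.coe_toNNReal t ht.le] at this
  rw [ENNReal.ofReal, ENNReal.ofReal, ← ENNReal.coe_rpow_of_nonneg _ hs.le,
    ← ENNReal.coe_rpow_of_nonneg _ ht.le]
  exact_mod_cast this

theorem pl_one_bdd {s t : ℝ} (hs : 0 < s) (ht : 0 < t) (hst : s + t = 1)
    (f g h : ℝ → ℝ≥0∞) (hf : Measurable f) (hg : Measurable g)
    (hh : Measurable h) (hf1 : ⨆ x, f x ≠ ∞) (hg1 : ⨆ x, g x ≠ ∞)
    (hfg : ∀ x y, f x ^ s * g y ^ t ≤ h (s * x + t * y)) :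
    (∫⁻ x, f x) ^ s * (∫⁻ x, g x) ^ t ≤ ∫⁻ x, h x := by
  by_cases hf0 : ⨆ x, f x = 0
  · have : f = fun _ => 0 := by
      funext x
      have := le_iSup f x
      rw [hf0] at this
      simpa using this
    rw [this]
    simp [hs]
  by_cases hg0 : ⨆ x, g x = 0
  · have : g = fun _ => 0 := by
      funext x
      have := le_iSup g x
      rw [hg0] at this
      simpa using this
    rw [this]
    simp [ht]
  set a := ⨆ x, f x with ha
  set b := ⨆ x, g x with hb
  have has : a ^ s ≠ 0 := by simp [hf0, hf1, ENNReal.rpow_eq_zero_iff]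
  have has' : a ^ s ≠ ∞ := ENNReal.rpow_ne_top_of_nonneg hs.le hf1
  have hbt : b ^ t ≠ 0 := by simp [hg0, hg1, ENNReal.rpow_eq_zero_iff]
  have hbt' : b ^ t ≠ ∞ := ENNReal.rpow_ne_top_of_nonneg ht.le hg1
  set c := a ^ s * b ^ t with hc
  have hc0 : c ≠ 0 := mul_ne_zero has hbt
  have hc1 : c ≠ ∞ := ENNReal.mul_ne_top has' hbt'
  have key := pl_one_normalized hs ht hst (fun x => a⁻¹ * f x) (fun x => b⁻¹ * g x)
    (fun x => c⁻¹ * h x) (hf.const_mul _) (hg.const_mul _) (hh.const_mul _)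
    (by rw [← ENNReal.mul_iSup, ← ha]; exact ENNReal.inv_mul_cancel hf0 hf1)
    (by rw [← ENNReal.mul_iSup, ← hb]; exact ENNReal.inv_mul_cancel hg0 hg1)
    (by
      intro x y
      rw [ENNReal.mul_rpow_of_nonneg _ _ hs.le, ENNReal.mul_rpow_of_nonneg _ _ ht.le,
        ENNReal.inv_rpow, ENNReal.inv_rpow, hc, ENNReal.mul_inv (Or.inl has) (Or.inl has')]
      calc (a ^ s)⁻¹ * f x ^ s * ((b ^ t)⁻¹ * g y ^ t)
          = ((a ^ s)⁻¹ * (b ^ t)⁻¹) * (f x ^ s * g y ^ t) := by ring
        _ ≤ _ := by gcongr; exact hfg x y)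
  rw [lintegral_const_mul _ hf, lintegral_const_mul _ hg, lintegral_const_mul _ hh] at key
  set F := ∫⁻ x, f x
  set G := ∫⁻ x, g x
  set H := ∫⁻ x, h x
  have h5 := le_trans (ennreal_amgm hs ht hst _ _) key
  rw [ENNReal.mul_rpow_of_nonneg _ _ hs.le, ENNReal.mul_rpow_of_nonneg _ _ ht.le,
        ENNReal.inv_rpow, ENNReal.inv_rpow] at h5
  have h6 : c * ((a ^ s)⁻¹ * F ^ s * ((b ^ t)⁻¹ * G ^ t)) ≤ c * (c⁻¹ * H) := by gcongr
  have h7 : c * ((a ^ s)⁻¹ * F ^ s * ((b ^ t)⁻¹ * G ^ t)) = F ^ s * G ^ t := by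
    rw [hc]
    calc a ^ s * b ^ t * ((a ^ s)⁻¹ * F ^ s * ((b ^ t)⁻¹ * G ^ t))
        = (a ^ s * (a ^ s)⁻¹) * (b ^ t * (b ^ t)⁻¹) * (F ^ s * G ^ t) := by ring
      _ = _ := by
        rw [ENNReal.mul_inv_cancel has has', ENNReal.mul_inv_cancel hbt hbt']; simp
  rw [h7, ← mul_assoc, ENNReal.mul_inv_cancel hc0 hc1, one_mul] at h6
  exact h6

theorem pl_one {s t : ℝ} (hs : 0 < s) (ht : 0 < t) (hst : s + t = 1)
    (f g h : ℝ → ℝ≥0∞) (hf : Measurable f) (hg : Measurable g)
    (hh : Measurable h) (hfg : ∀ x y, f x ^ s * g y ^ t ≤ h (s * x + t * y)) :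
    (∫⁻ x, f x) ^ s * (∫⁻ x, g x) ^ t ≤ ∫⁻ x, h x := by
  have hcut : ∀ u : ℝ → ℝ≥0∞, Measurable u →
      ∫⁻ x, u x = ⨆ n : ℕ, ∫⁻ x, min (u x) n := by
    intro u hu
    rw [← lintegral_iSup (fun n => hu.min measurable_const)
      (fun m n hmn x => min_le_min_left _ (by exact_mod_cast hmn))]
    apply lintegral_congr
    intro x
    apply le_antisymm
    · by_cases hx : u x = ∞
      · rw [hx]
        simp only [top_le_iff, le_top, inf_of_le_right]
        exact ENNReal.iSup_natCast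
      · obtain ⟨n, hn⟩ := ENNReal.exists_nat_gt hx
        refine le_trans ?_ (le_iSup _ n)
        rw [min_eq_left hn.le]
    · exact iSup_le fun n => min_le_left _ _
  have hsup : ∀ (u : ℝ → ℝ≥0∞) (n : ℕ), ⨆ x, min (u x) (n : ℝ≥0∞) ≠ ∞ := by
    intro u n
    refine ne_top_of_le_ne_top (ENNReal.natCast_ne_top n) (iSup_le fun x => min_le_right _ _)
  have hpow : ∀ (r : ℝ) (_ : 0 < r) (u : ℕ → ℝ≥0∞), (⨆ n, u n) ^ r = ⨆ n, u n ^ r := by
    intro r hr u
    exact (ENNReal.orderIsoRpow r hr).map_iSup u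
  rw [hcut f hf, hcut g hg, hpow s hs, hpow t ht, ENNReal.iSup_mul]
  refine iSup_le fun n => ?_
  rw [ENNReal.mul_iSup]
  refine iSup_le fun m => ?_
  refine pl_one_bdd hs ht hst _ _ h (hf.min measurable_const) (hg.min measurable_const) hh
    (hsup f n) (hsup g m) ?_
  intro x y
  exact le_trans (mul_le_mul' (ENNReal.rpow_le_rpow (min_le_left _ _) hs.le)
    (ENNReal.rpow_le_rpow (min_le_left _ _) ht.le)) (hfg x y)

/-! ### The Gaussian measure -/

/-- the Gaussian measure of `ℝ` has the density `gaussianPDF 0 1` -/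
lemma lintegral_gauss {u : ℝ → ℝ≥0∞} (hu : Measurable u) :
    ∫⁻ x, u x ∂(gaussianReal 0 1) = ∫⁻ x, u x * gaussianPDF 0 1 x := by
  rw [gaussianReal_of_var_ne_zero 0 one_ne_zero,
    lintegral_withDensity_eq_lintegral_mul _ (measurable_gaussianPDF 0 1) hu]
  refine lintegral_congr fun x => ?_
  rw [Pi.mul_apply, mul_comm]

lemma pdf_mul {s t : ℝ} (hs : 0 < s) (ht : 0 < t) (hst : s + t = 1) (x y : ℝ) :
    gaussianPDF 0 1 x ^ s * gaussianPDF 0 1 y ^ t *
      ENNReal.ofReal (Real.exp (s * t / 2 * (x - y) ^ 2)) = gaussianPDF 0 1 (s * x + t * y) := by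
  have hp : 0 < (√(2 * Real.pi * (1 : ℝ≥0)))⁻¹ := by
    have := Real.pi_pos
    positivity
  have e : ∀ z : ℝ, gaussianPDFReal 0 1 z =
      (√(2 * Real.pi * (1 : ℝ≥0)))⁻¹ * Real.exp (-z ^ 2 / 2) := by
    intro z
    unfold gaussianPDFReal
    simp
  unfold gaussianPDF
  rw [e x, e y, e (s * x + t * y)]
  set p := (√(2 * Real.pi * (1 : ℝ≥0)))⁻¹ with hpd
  rw [ENNReal.ofReal_rpow_of_pos (by positivity), ENNReal.ofReal_rpow_of_pos (by positivity),
    ← ENNReal.ofReal_mul (by positivity), ← ENNReal.ofReal_mul (by positivity)]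
  congr 1
  rw [Real.mul_rpow hp.le (Real.exp_pos _).le, Real.mul_rpow hp.le (Real.exp_pos _).le,
    ← Real.exp_mul, ← Real.exp_mul]
  have h1 : p ^ s * p ^ t = p := by
    rw [← Real.rpow_add hp, hst, Real.rpow_one]
  have h2 : Real.exp (-x ^ 2 / 2 * s) * Real.exp (-y ^ 2 / 2 * t) *
      Real.exp (s * t / 2 * (x - y) ^ 2) = Real.exp (-(s * x + t * y) ^ 2 / 2) := by
    rw [← Real.exp_add, ← Real.exp_add]
    congr 1
    have : t = 1 - s := by linarith
    rw [this]
    ring
  calc p ^ s * Real.exp (-x ^ 2 / 2 * s) * (p ^ t * Real.exp (-y ^ 2 / 2 * t)) *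
        Real.exp (s * t / 2 * (x - y) ^ 2)
      = (p ^ s * p ^ t) * (Real.exp (-x ^ 2 / 2 * s) * Real.exp (-y ^ 2 / 2 * t) *
        Real.exp (s * t / 2 * (x - y) ^ 2)) := by ring
    _ = _ := by rw [h1, h2]

/-- one dimension -/
theorem gauss_one {s t : ℝ} (hs : 0 < s) (ht : 0 < t) (hst : s + t = 1)
    (u v w : ℝ → ℝ≥0∞) (hu : Measurable u) (hv : Measurable v) (hw : Measurable w)
    (h : ∀ x y, u x ^ s * v y ^ t ≤
      w (s * x + t * y) * ENNReal.ofReal (Real.exp (s * t / 2 * (x - y) ^ 2))) :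
    (∫⁻ x, u x ∂(gaussianReal 0 1)) ^ s * (∫⁻ x, v x ∂(gaussianReal 0 1)) ^ t ≤
      ∫⁻ x, w x ∂(gaussianReal 0 1) := by
  have hm := measurable_gaussianPDF 0 1
  rw [lintegral_gauss hu, lintegral_gauss hv, lintegral_gauss hw]
  refine pl_one hs ht hst _ _ _ (hu.mul hm) (hv.mul hm) (hw.mul hm) fun x y => ?_
  rw [ENNReal.mul_rpow_of_nonneg _ _ hs.le, ENNReal.mul_rpow_of_nonneg _ _ ht.le,
    ← pdf_mul hs ht hst x y]
  calc u x ^ s * gaussianPDF 0 1 x ^ s * (v y ^ t * gaussianPDF 0 1 y ^ t)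
      = (u x ^ s * v y ^ t) * (gaussianPDF 0 1 x ^ s * gaussianPDF 0 1 y ^ t) := by ring
    _ ≤ (w (s * x + t * y) * ENNReal.ofReal (Real.exp (s * t / 2 * (x - y) ^ 2))) *
        (gaussianPDF 0 1 x ^ s * gaussianPDF 0 1 y ^ t) := mul_le_mul' (h x y) le_rfl
    _ = _ := by ring

/-- Prekopa-Leindler inequality for the Gaussian measure on `Fin n → ℝ`. -/
theorem gauss_fin {s t : ℝ} (hs : 0 < s) (ht : 0 < t) (hst : s + t = 1) (n : ℕ) :
    ∀ (u v w : (Fin n → ℝ) → ℝ≥0∞), Measurable u → Measurable v → Measurable w →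
    (∀ x y, u x ^ s * v y ^ t ≤
      w (s • x + t • y) * ENNReal.ofReal (Real.exp (s * t / 2 * ∑ i, (x i - y i) ^ 2))) →
    (∫⁻ x, u x ∂(gpi (Fin n))) ^ s * (∫⁻ x, v x ∂(gpi (Fin n))) ^ t ≤
      ∫⁻ x, w x ∂(gpi (Fin n)) := by
  induction n with
  | zero =>
    intro u v w hu hv hw h
    have hone : (gpi (Fin 0)) univ = 1 := by
      unfold gpi
      simp
    rw [lintegral_unique, lintegral_unique, lintegral_unique, hone]
    simp only [mul_one]
    refine (h _ _).trans (le_of_eq ?_)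
    rw [Finset.univ_eq_empty, Finset.sum_empty, mul_zero, Real.exp_zero, ENNReal.ofReal_one,
      mul_one]
    exact congrArg w (Subsingleton.elim _ _)
  | succ n ih =>
    intro u v w hu hv hw h
    set e := MeasurableEquiv.piFinSuccAbove (fun _ : Fin (n + 1) => ℝ) 0 with he
    have hvp : MeasurePreserving e (gpi (Fin (n + 1)))
        ((gaussianReal 0 1).prod (gpi (Fin n))) :=
      measurePreserving_piFinSuccAbove (fun _ : Fin (n + 1) => gaussianReal 0 1) 0
    have hsplit : ∀ f : (Fin (n + 1) → ℝ) → ℝ≥0∞, Measurable f →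
        ∫⁻ x, f x ∂(gpi (Fin (n + 1))) =
          ∫⁻ a : ℝ, ∫⁻ x : Fin n → ℝ, f (e.symm (a, x)) ∂(gpi (Fin n)) ∂(gaussianReal 0 1) := by
      intro f hf
      rw [← hvp.symm.lintegral_comp hf]
      exact lintegral_prod _ (hf.comp e.symm.measurable).aemeasurable
    have hmid : ∀ (a b : ℝ) (x y : Fin n → ℝ),
        s • e.symm (a, x) + t • e.symm (b, y) = e.symm (s * a + t * b, s • x + t • y) := by
      intro a b x y
      funext i
      refine Fin.cases ?_ (fun j => ?_) i
      · simp [he, MeasurableEquiv.piFinSuccAbove]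
      · simp [he, MeasurableEquiv.piFinSuccAbove]
    have hsum : ∀ (a b : ℝ) (x y : Fin n → ℝ),
        ∑ i, (e.symm (a, x) i - e.symm (b, y) i) ^ 2 = (a - b) ^ 2 + ∑ i, (x i - y i) ^ 2 := by
      intro a b x y
      rw [Fin.sum_univ_succ]
      congr 1
    have hm2 : ∀ f : (Fin (n + 1) → ℝ) → ℝ≥0∞, Measurable f →
        Measurable fun a : ℝ => ∫⁻ x : Fin n → ℝ, f (e.symm (a, x)) ∂(gpi (Fin n)) := by
      intro f hf
      exact (hf.comp e.symm.measurable).lintegral_prod_right'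
    rw [hsplit u hu, hsplit v hv, hsplit w hw]
    refine gauss_one hs ht hst _ _ _ (hm2 u hu) (hm2 v hv) (hm2 w hw) fun a b => ?_
    have hsec : ∀ (f : (Fin (n + 1) → ℝ) → ℝ≥0∞) (c : ℝ), Measurable f →
        Measurable fun x : Fin n → ℝ => f (e.symm (c, x)) := by
      intro f c hf
      exact hf.comp (e.symm.measurable.comp measurable_prodMk_left)
    rw [← lintegral_mul_const _ (hsec w _ hw)]
    refine ih _ _ _ (hsec u a hu) (hsec v b hv) ((hsec w _ hw).mul_const _) fun x y => ?_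
    have h1 := h (e.symm (a, x)) (e.symm (b, y))
    rw [hmid, hsum] at h1
    refine h1.trans (le_of_eq ?_)
    rw [mul_add, Real.exp_add, ENNReal.ofReal_mul (Real.exp_pos _).le, mul_assoc]

variable {ι : Type} [Fintype ι]

/-- **Prekopa-Leindler for the Gaussian measure.** -/
theorem gauss_pl {s t : ℝ} (hs : 0 < s) (ht : 0 < t) (hst : s + t = 1)
    (u v w : (ι → ℝ) → ℝ≥0∞) (hu : Measurable u) (hv : Measurable v) (hw : Measurable w)
    (h : ∀ x y, u x ^ s * v y ^ t ≤
      w (s • x + t • y) * ENNReal.ofReal (Real.exp (s * t / 2 * ∑ i, (x i - y i) ^ 2))) :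
    (∫⁻ x, u x ∂(gpi ι)) ^ s * (∫⁻ x, v x ∂(gpi ι)) ^ t ≤ ∫⁻ x, w x ∂(gpi ι) := by
  classical
  set σ : Fin (Fintype.card ι) ≃ ι := (Fintype.equivFin ι).symm with hσ
  set e := MeasurableEquiv.piCongrLeft (fun _ : ι => ℝ) σ with he
  have mp : MeasurePreserving e (gpi (Fin (Fintype.card ι))) (gpi ι) :=
    measurePreserving_piCongrLeft (α := fun _ : ι => ℝ) (fun _ : ι => gaussianReal 0 1) σ
  have hea : ∀ (x : Fin (Fintype.card ι) → ℝ) (i : ι), e x i = x (σ.symm i) := by
    intro x i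
    obtain ⟨j, rfl⟩ := σ.surjective i
    rw [Equiv.symm_apply_apply, he, MeasurableEquiv.coe_piCongrLeft]
    exact Equiv.piCongrLeft_apply_apply (fun _ : ι => ℝ) σ x j
  rw [← mp.lintegral_comp hu, ← mp.lintegral_comp hv, ← mp.lintegral_comp hw]
  refine gauss_fin hs ht hst _ _ _ _ (hu.comp e.measurable) (hv.comp e.measurable)
    (hw.comp e.measurable) fun x y => ?_
  have h1 := h (e x) (e y)
  have h2 : s • e x + t • e y = e (s • x + t • y) := by
    funext i
    rw [Pi.add_apply, Pi.smul_apply, Pi.smul_apply, hea, hea, hea]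
    rfl
  have h3 : ∑ i, (e x i - e y i) ^ 2 = ∑ i, (x i - y i) ^ 2 := by
    rw [← σ.sum_comp]
    refine Finset.sum_congr rfl fun j _ => ?_
    rw [hea, hea, Equiv.symm_apply_apply]
  rw [h2, h3] at h1
  exact h1

end Vale.Agent.P146.Lt
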