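import Vale.Agent.P146.Lt.LtMain

/-!
# P146, Lt: the lower tail of the free energy from a bound of its variance
-/

open MeasureTheory ProbabilityTheory
open scoped ENNReal

namespace Vale.Agent.P146.Lt

open Vale.Agent.P146.Ub.Cv

theorem lt_lin_grad (n : ℕ) (β : ℝ) (p : Pair n) : Lin (gradF n β p) :=
  Lin.of_bounded ((reg_freeEnergy n β).G_dom p).cont _ fun g => (reg_freeEnergy n β).G_bd p g

/-- the Laplace transform on the negative side -/
theorem sk_mgf {β : ℝ} (hβ : 0 < β) {n : ℕ} (hn : 1 ≤ n) {V : ℝ} (hV0 : 0 < V)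
    (hV : Var[freeEnergy n β; disorder n] ≤ V) {a : ℝ} (ha : 0 ≤ a) :
    ∫⁻ g, ENNReal.ofReal (Real.exp (-(a * freeEnergy n β g))) ∂(disorder n) ≤
      ENNReal.ofReal (Real.exp (-(a * ∫ g, freeEnergy n β g ∂(disorder n)) +
        2 * a ^ 2 * √(V * (β ^ 2 * n / 2)))) := by
  classical
  have hn0 : (0 : ℝ) < n := by exact_mod_cast hn
  have lF := lin_freeEnergy n β
  have hmem : MemLp (freeEnergy n β) 2 (disorder n) := by
    rw [memLp_two_iff_integrable_sq lF.cont.aestronglyMeasurable]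
    exact (lF.dom.pow 2).integrable
  have hprob : IsProbabilityMeasure (disorder n) := by unfold disorder; infer_instance
  have hvar : Var[freeEnergy n β; disorder n] =
      ∫ g, freeEnergy n β g ^ 2 ∂(disorder n) - (∫ g, freeEnergy n β g ∂(disorder n)) ^ 2 := by
    rw [variance_eq_sub hmem]
    rfl
  have h := low_mgf (reg_freeEnergy n β) lF (lt_lin_grad n β) (tangent_freeEnergy n β)
    (sum_gradF_sq n β) (by positivity) hV0 (by rw [hvar] at hV; exact hV) ha
  exact h

/-- the lower tail -/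
theorem sk_low {β : ℝ} (hβ : 0 < β) {n : ℕ} (hn : 1 ≤ n) {V : ℝ} (hV0 : 0 < V)
    (hV : Var[freeEnergy n β; disorder n] ≤ V) {t : ℝ} (ht : 0 ≤ t) :
    (disorder n).real {g | freeEnergy n β g ≤ ∫ g, freeEnergy n β g ∂(disorder n) - t} ≤
      Real.exp (-(t ^ 2 / (8 * √(V * (β ^ 2 * n / 2))))) := by
  have hn0 : (0 : ℝ) < n := by exact_mod_cast hn
  set R : ℝ := √(V * (β ^ 2 * n / 2)) with hR
  have hR0 : 0 < R := Real.sqrt_pos.2 (by positivity)
  set E : ℝ := ∫ g, freeEnergy n β g ∂(disorder n) with hE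
  set a : ℝ := t / (4 * R) with ha
  have ha0 : 0 ≤ a := by positivity
  have h1 := sk_mgf hβ hn hV0 hV ha0
  rw [← hE, ← hR] at h1
  have m1 : Measurable (fun g => ENNReal.ofReal (Real.exp (-(a * freeEnergy n β g)))) :=
    (Real.measurable_exp.comp ((lin_freeEnergy n β).cont.measurable.const_mul a).neg).ennreal_ofReal
  have h2 := mul_meas_ge_le_lintegral (μ := disorder n) m1
    (ENNReal.ofReal (Real.exp (-(a * (E - t)))))
  have h3 : {g | freeEnergy n β g ≤ E - t} ⊆
      {g | ENNReal.ofReal (Real.exp (-(a * (E - t)))) ≤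
        ENNReal.ofReal (Real.exp (-(a * freeEnergy n β g)))} := by
    intro g hg
    refine ENNReal.ofReal_le_ofReal (Real.exp_le_exp.2 ?_)
    have := mul_le_mul_of_nonneg_left (show freeEnergy n β g ≤ E - t from hg) ha0
    linarith
  have h4 : ENNReal.ofReal (Real.exp (-(a * (E - t)))) *
      (disorder n) {g | freeEnergy n β g ≤ E - t} ≤
      ENNReal.ofReal (Real.exp (-(a * E) + 2 * a ^ 2 * R)) :=
    (mul_le_mul_right (measure_mono h3) _).trans (h2.trans h1)
  have h5 : (disorder n) {g | freeEnergy n β g ≤ E - t} ≤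
      ENNReal.ofReal (Real.exp (-(t ^ 2 / (8 * R)))) := by
    have e1 : ENNReal.ofReal (Real.exp (-(a * E) + 2 * a ^ 2 * R)) =
        ENNReal.ofReal (Real.exp (-(a * (E - t)))) *
          ENNReal.ofReal (Real.exp (-(t ^ 2 / (8 * R)))) := by
      rw [← ENNReal.ofReal_mul (Real.exp_pos _).le, ← Real.exp_add]
      congr 2
      rw [ha]
      field_simp
      ring
    rw [e1] at h4
    have hpos : ENNReal.ofReal (Real.exp (-(a * (E - t)))) ≠ 0 := by
      simp [Real.exp_pos]
    exact (ENNReal.mul_le_mul_iff_right hpos ENNReal.ofReal_ne_top).1 h4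
  exact ENNReal.toReal_le_of_le_ofReal (Real.exp_pos _).le h5

end Vale.Agent.P146.Lt
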