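import Vale.Agent.P146.Ub.Conv0

/-!
# P146, Lt (lower tail): Bessel's inequality, the mean gradient of the smoothed function
-/

open MeasureTheory ProbabilityTheory

namespace Vale.Agent.P146.Lt

open Vale.Agent.P146.Ub.Cv

variable {ι : Type} [Fintype ι]

/-- Bessel's inequality for `1, y_1, ..., y_N` in `L²` of the Gaussian measure. -/
theorem bessel {h : (ι → ℝ) → ℝ} (hh : Lin h) :
    ∑ i, (∫ y, h y * y i ∂(gpi ι)) ^ 2 ≤
      ∫ y, h y ^ 2 ∂(gpi ι) - (∫ y, h y ∂(gpi ι)) ^ 2 := by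
  classical
  obtain ⟨m, hm⟩ : ∃ m : ℝ, m = ∫ y, h y ∂(gpi ι) := ⟨_, rfl⟩
  obtain ⟨b, hb⟩ : ∃ b : ι → ℝ, b = fun i => ∫ y, h y * y i ∂(gpi ι) := ⟨_, rfl⟩
  have hbi : ∀ i, ∫ y, h y * y i ∂(gpi ι) = b i := fun i => by rw [hb]
  have dh : Dom h := hh.dom
  have dL : Dom (fun y : ι → ℝ => ∑ i, b i * y i) := Dom.sum _ fun i _ => (Dom.coord i).const_mul _
  -- moments of the linear function
  have e1 : ∫ y : ι → ℝ, (∑ i, b i * y i) ∂(gpi ι) = 0 := by
    rw [int_sum _ fun i _ => (Dom.coord i).const_mul _]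
    refine Finset.sum_eq_zero fun i _ => ?_
    rw [integral_const_mul, int_coord_zero, mul_zero]
  have e2 : ∫ y : ι → ℝ, (∑ i, b i * y i) * (∑ i, b i * y i) ∂(gpi ι) = ∑ i, b i ^ 2 := by
    have h1 : ∀ y : ι → ℝ, (∑ i, b i * y i) * (∑ i, b i * y i) =
        ∑ i, b i * (y i * ∑ j, b j * y j) := by
      intro y
      rw [Finset.sum_mul]
      exact Finset.sum_congr rfl fun i _ => by ring
    simp_rw [h1]
    rw [int_sum _ fun i _ => ((Dom.coord i).mul dL).const_mul _]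
    refine Finset.sum_congr rfl fun i _ => ?_
    rw [integral_const_mul]
    have h2 : ∫ y : ι → ℝ, y i * (∑ j, b j * y j) ∂(gpi ι) = ∫ _y : ι → ℝ, b i ∂(gpi ι) := by
      refine ibp i dL (Dom.const (b i)) fun g t => ?_
      have h3 : ∀ t : ℝ, ∑ j, b j * Function.update g i t j =
          b i * t + ∑ j ∈ Finset.univ.erase i, b j * g j := by
        intro t
        rw [← Finset.add_sum_erase Finset.univ _ (Finset.mem_univ i), Function.update_self]
        congr 1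
        refine Finset.sum_congr rfl fun j hj => ?_
        rw [Function.update_of_ne (Finset.ne_of_mem_erase hj)]
      simp_rw [h3]
      exact lin_deriv _ _ _
    rw [h2]
    simp [sq]
  have e3 : ∫ y : ι → ℝ, h y * (∑ i, b i * y i) ∂(gpi ι) = ∑ i, b i ^ 2 := by
    have h1 : ∀ y : ι → ℝ, h y * (∑ i, b i * y i) = ∑ i, b i * (h y * y i) := by
      intro y
      rw [Finset.mul_sum]
      exact Finset.sum_congr rfl fun i _ => by ring
    simp_rw [h1]
    rw [int_sum _ fun i _ => (dh.mul (Dom.coord i)).const_mul _]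
    refine Finset.sum_congr rfl fun i _ => ?_
    rw [integral_const_mul, hbi, sq]
  -- the square
  have e4 : ∀ y : ι → ℝ, (h y - m - ∑ i, b i * y i) ^ 2 =
      ((h y ^ 2 + (∑ i, b i * y i) * (∑ i, b i * y i)) + (m ^ 2 + (2 * m) * (∑ i, b i * y i))) -
        ((2 * m) * h y + 2 * (h y * (∑ i, b i * y i))) := by
    intro y
    ring
  have h0 : 0 ≤ ∫ y : ι → ℝ, (h y - m - ∑ i, b i * y i) ^ 2 ∂(gpi ι) :=
    integral_nonneg fun y => sq_nonneg _
  simp_rw [e4] at h0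
  rw [int_sub (((dh.pow 2).add (dL.mul dL)).add ((Dom.const (m ^ 2)).add (dL.const_mul _)))
      ((dh.const_mul _).add ((dh.mul dL).const_mul _)),
    int_add ((dh.pow 2).add (dL.mul dL)) ((Dom.const (m ^ 2)).add (dL.const_mul _)),
    int_add (dh.pow 2) (dL.mul dL), int_add (Dom.const (m ^ 2)) (dL.const_mul _),
    int_add (dh.const_mul _) ((dh.mul dL).const_mul _), integral_const_mul, integral_const_mul,
    integral_const_mul, e1, e2, e3, ← hm] at h0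
  have e5 : ∫ _y : ι → ℝ, m ^ 2 ∂(gpi ι) = m ^ 2 := by simp
  rw [e5] at h0
  simp_rw [hbi]
  rw [← hm]
  linarith

/-- The mean gradient of the smoothed function. -/
theorem grad_mean [DecidableEq ι] {F : (ι → ℝ) → ℝ} {G H : ι → (ι → ℝ) → ℝ} {B : ℝ}
    (h : Reg F G H B) (hF : Lin F) {c s : ℝ} (hcs : c ^ 2 + s ^ 2 = 1) (x : ι → ℝ) (i : ι) :
    s * ∫ y, G i (mix c s x y) ∂(gpi ι) = ∫ y, F (mix c s x y) * y i ∂(gpi ι) := by
  have hc : |c| ≤ 1 := by
    rw [abs_le]; constructor <;> nlinarith [sq_nonneg s]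
  have hs : |s| ≤ 1 := by
    rw [abs_le]; constructor <;> nlinarith [sq_nonneg c]
  have lG : Lin (G i) := Lin.of_bounded (h.G_dom i).cont B (h.G_bd i)
  have dF : Dom (fun y => F (mix c s x y)) := (hF.fix hc hs x).dom
  have dG : Dom (fun y => s * G i (mix c s x y)) := ((lG.fix hc hs x).const_mul s).dom
  have h1 := ibp i dF dG fun g t => by
    simp only [mix_upd_right]
    have d2 := comp_upd (f := F) (f' := G i) (i := i) (z := mix c s x g)
      (fun t => h.coord _ i t) (lin_deriv' s (c * x i) t)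
    refine d2.congr_deriv ?_
    ring
  rw [← integral_const_mul, ← h1]
  exact integral_congr_ae (Filter.Eventually.of_forall fun y => mul_comm _ _)

/-- `E |∇ P F|² ≤ Var F · c² / s²` -/
theorem grad_le [DecidableEq ι] {F : (ι → ℝ) → ℝ} {G H : ι → (ι → ℝ) → ℝ} {B : ℝ}
    (h : Reg F G H B) (hF : Lin F) (hG : ∀ i, Lin (G i)) {c s : ℝ} (hcs : c ^ 2 + s ^ 2 = 1)
    (hs : 0 < s) :
    ∫ x, ∑ i, (c * ∫ y, G i (mix c s x y) ∂(gpi ι)) ^ 2 ∂(gpi ι) ≤
      (∫ g, F g ^ 2 ∂(gpi ι) - (∫ g, F g ∂(gpi ι)) ^ 2) / s ^ 2 := by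
  have hc1 : |c| ≤ 1 := by
    rw [abs_le]; constructor <;> nlinarith [sq_nonneg s]
  have hs1 : |s| ≤ 1 := by
    rw [abs_le]; constructor <;> nlinarith [sq_nonneg c]
  have hs2 : 0 < s ^ 2 := by positivity
  have hc2 : c ^ 2 ≤ 1 := by nlinarith
  have mF := (hF.mix2 hcs).1
  have mF2 : Integrable (fun q : (ι → ℝ) × (ι → ℝ) => F (mix c s q.1 q.2) ^ 2)
      ((gpi ι).prod (gpi ι)) :=
    (mp_mix hcs).integrable_comp_of_integrable (g := fun z => F z ^ 2) (hF.dom.pow 2).integrable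
  obtain ⟨A, hA⟩ : ∃ A : (ι → ℝ) → ℝ, A = fun x => ∫ y, F (mix c s x y) ∂(gpi ι) := ⟨_, rfl⟩
  obtain ⟨A2, hA2⟩ : ∃ A2 : (ι → ℝ) → ℝ, A2 = fun x => ∫ y, F (mix c s x y) ^ 2 ∂(gpi ι) :=
    ⟨_, rfl⟩
  have iA : Integrable A (gpi ι) := by rw [hA]; exact mF.integral_prod_left
  have iA2 : Integrable A2 (gpi ι) := by rw [hA2]; exact mF2.integral_prod_left
  have hbes : ∀ x, ∑ i, (∫ y, F (mix c s x y) * y i ∂(gpi ι)) ^ 2 ≤ A2 x - A x ^ 2 := by
    intro x
    rw [hA, hA2]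
    exact bessel (hF.fix hc1 hs1 x)
  have hle : ∀ x, A x ^ 2 ≤ A2 x := by
    intro x
    have h1 := hbes x
    have h2 : 0 ≤ ∑ i, (∫ y, F (mix c s x y) * y i ∂(gpi ι)) ^ 2 :=
      Finset.sum_nonneg fun i _ => sq_nonneg _
    linarith
  have iAs : Integrable (fun x => A x ^ 2) (gpi ι) := by
    refine Integrable.mono' iA2 (iA.1.pow 2) (Filter.Eventually.of_forall fun x => ?_)
    rw [Real.norm_eq_abs, abs_of_nonneg (sq_nonneg _)]
    exact hle x
  have eA : ∫ x, A x ∂(gpi ι) = ∫ g, F g ∂(gpi ι) := by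
    rw [hA, ← integral_prod _ mF]
    exact int_mix hcs hF.cont
  have eA2 : ∫ x, A2 x ∂(gpi ι) = ∫ g, F g ^ 2 ∂(gpi ι) := by
    rw [hA2, ← integral_prod _ mF2]
    exact int_mix hcs (hF.cont.pow 2)
  -- Jensen
  have hJ : (∫ g, F g ∂(gpi ι)) ^ 2 ≤ ∫ x, A x ^ 2 ∂(gpi ι) := by
    obtain ⟨m, hm⟩ : ∃ m : ℝ, m = ∫ g, F g ∂(gpi ι) := ⟨_, rfl⟩
    have h0 : 0 ≤ ∫ x, (A x - m) ^ 2 ∂(gpi ι) := integral_nonneg fun x => sq_nonneg _
    have e4 : ∀ x, (A x - m) ^ 2 = (A x ^ 2 + m ^ 2) - (2 * m) * A x := by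
      intro x
      ring
    simp_rw [e4] at h0
    have i5 : Integrable (fun x => A x ^ 2 + m ^ 2) (gpi ι) := iAs.add (integrable_const _)
    rw [integral_sub i5 (iA.const_mul _),
      integral_add iAs (integrable_const _), integral_const_mul, eA, ← hm] at h0
    have e5 : ∫ _y : ι → ℝ, m ^ 2 ∂(gpi ι) = m ^ 2 := by simp
    rw [e5] at h0
    rw [← hm]
    linarith
  have hpt : ∀ x, ∑ i, (c * ∫ y, G i (mix c s x y) ∂(gpi ι)) ^ 2 ≤ (A2 x - A x ^ 2) / s ^ 2 := by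
    intro x
    rw [le_div_iff₀ hs2]
    refine le_trans ?_ (hbes x)
    rw [Finset.sum_mul]
    refine Finset.sum_le_sum fun i _ => ?_
    rw [← grad_mean h hF hcs x i]
    have e : (c * ∫ y, G i (mix c s x y) ∂(gpi ι)) ^ 2 * s ^ 2 =
        c ^ 2 * (s * ∫ y, G i (mix c s x y) ∂(gpi ι)) ^ 2 := by ring
    rw [e]
    exact mul_le_of_le_one_left (sq_nonneg _) hc2
  refine (integral_mono_of_nonneg (Filter.Eventually.of_forall fun x =>
    Finset.sum_nonneg fun i _ => sq_nonneg _) ((iA2.sub iAs).div_const (s ^ 2))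
    (Filter.Eventually.of_forall hpt)).trans ?_
  have e6 : ∫ x, (A2 - fun x => A x ^ 2) x / s ^ 2 ∂(gpi ι) =
      (∫ g, F g ^ 2 ∂(gpi ι) - ∫ x, A x ^ 2 ∂(gpi ι)) / s ^ 2 := by
    rw [integral_div, integral_sub' iA2 iAs, eA2]
  refine (le_of_eq e6).trans ?_
  refine div_le_div_of_nonneg_right ?_ hs2.le
  linarith

end Vale.Agent.P146.Lt
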