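import Vale.Agent.P146.Ub.Conv0

/-!
# P146, Lt: exponential moments from Prekopa-Leindler (LtConv, over the statement of LtPL)
-/

open MeasureTheory ProbabilityTheory
open scoped ENNReal

namespace Vale.Agent.P146.Lt

open Vale.Agent.P146.Ub.Cv

variable {ι : Type} [Fintype ι]

/-- statement of `gauss_pl` -/
def GaussPL (ι : Type) [Fintype ι] : Prop := ∀ {s t : ℝ}, 0 < s → 0 < t → s + t = 1 →
    ∀ (u v w : (ι → ℝ) → ℝ≥0∞), Measurable u → Measurable v → Measurable w →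
    (∀ x y, u x ^ s * v y ^ t ≤
      w (s • x + t • y) * ENNReal.ofReal (Real.exp (s * t / 2 * ∑ i, (x i - y i) ^ 2))) →
    (∫⁻ x, u x ∂(gpi ι)) ^ s * (∫⁻ x, v x ∂(gpi ι)) ^ t ≤ ∫⁻ x, w x ∂(gpi ι)

/-- Jensen for the exponential, in `ℝ≥0∞` -/
theorem lt_jensen {α : Type*} [MeasurableSpace α] {μ : Measure α} [IsProbabilityMeasure μ]
    {g : α → ℝ} (hg : Integrable g μ) :
    ENNReal.ofReal (Real.exp (∫ x, g x ∂μ)) ≤ ∫⁻ x, ENNReal.ofReal (Real.exp (g x)) ∂μ := by
  set m := ∫ x, g x ∂μ with hm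
  have h1 : ∀ x, Real.exp m * (g x + (1 - m)) ≤ Real.exp (g x) := by
    intro x
    have h2 := Real.add_one_le_exp (g x - m)
    have h3 : Real.exp (g x) = Real.exp m * Real.exp (g x - m) := by
      rw [← Real.exp_add]; congr 1; ring
    rw [h3]
    refine mul_le_mul_of_nonneg_left ?_ (Real.exp_pos m).le
    linarith
  have hi : Integrable (fun x => Real.exp m * (g x + (1 - m))) μ :=
    (hg.add (integrable_const (1 - m))).const_mul _
  have h4 : ∫ x, Real.exp m * (g x + (1 - m)) ∂μ = Real.exp m := by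
    rw [integral_const_mul, integral_add hg (integrable_const (1 - m))]
    simp [← hm]
  have h5 : ∫ x, Real.exp m * (g x + (1 - m)) ∂μ ≤
      ∫ x, max (Real.exp m * (g x + (1 - m))) 0 ∂μ :=
    integral_mono hi hi.pos_part fun x => le_max_left _ _
  calc ENNReal.ofReal (Real.exp m) ≤
        ENNReal.ofReal (∫ x, max (Real.exp m * (g x + (1 - m))) 0 ∂μ) := by
        apply ENNReal.ofReal_le_ofReal
        linarith
    _ = ∫⁻ x, ENNReal.ofReal (max (Real.exp m * (g x + (1 - m))) 0) ∂μ :=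
        ofReal_integral_eq_lintegral_ofReal hi.pos_part
          (Filter.Eventually.of_forall fun x => le_max_right _ _)
    _ ≤ _ := lintegral_mono fun x => ENNReal.ofReal_le_ofReal
        (max_le (h1 x) (Real.exp_pos _).le)

theorem conv_exp0 (pl : GaussPL ι) {f Q : (ι → ℝ) → ℝ} (hf : Measurable f) (hQ : Measurable Q)
    (hfi : Integrable f (gpi ι)) (hQi : Integrable Q (gpi ι)) {a : ℝ}
    (h : ∀ x y, a * (f y - f x) ≤ a ^ 2 * Q y + (∑ i, (x i - y i) ^ 2) / 4) :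
    ∫⁻ g, ENNReal.ofReal (Real.exp (-(a * f g))) ∂(gpi ι) ≤
      ENNReal.ofReal (Real.exp (-(a * ∫ g, f g ∂(gpi ι)) + a ^ 2 * ∫ g, Q g ∂(gpi ι))) := by
  have hrp : ∀ z : ℝ, ENNReal.ofReal (Real.exp z) ^ (1 / 2 : ℝ) =
      ENNReal.ofReal (Real.exp (z / 2)) := by
    intro z
    rw [ENNReal.ofReal_rpow_of_pos (Real.exp_pos _), ← Real.exp_mul]
    congr 2
    ring
  set A := ∫⁻ g, ENNReal.ofReal (Real.exp (-(a * f g))) ∂(gpi ι) with hA
  set B := ∫⁻ g, ENNReal.ofReal (Real.exp (a * f g - a ^ 2 * Q g)) ∂(gpi ι) with hB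
  have h1 : A ^ (1 / 2 : ℝ) * B ^ (1 / 2 : ℝ) ≤ 1 := by
    have h2 := pl (s := 1 / 2) (t := 1 / 2) (by norm_num) (by norm_num) (by norm_num)
      (fun g => ENNReal.ofReal (Real.exp (-(a * f g))))
      (fun g => ENNReal.ofReal (Real.exp (a * f g - a ^ 2 * Q g))) (fun _ => 1)
      (by fun_prop) (by fun_prop) measurable_const (fun x y => by
        rw [hrp, hrp, ← ENNReal.ofReal_mul (Real.exp_pos _).le, ← Real.exp_add, one_mul]
        refine ENNReal.ofReal_le_ofReal (Real.exp_le_exp.2 ?_)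
        have h3 := h x y
        have h4 : (1 / 2 * (1 / 2) / 2 : ℝ) * ∑ i, (x i - y i) ^ 2 =
            (∑ i, (x i - y i) ^ 2) / 4 / 2 := by ring
        rw [h4]
        linarith)
    rw [lintegral_const, measure_univ, one_mul] at h2
    exact h2
  have h5 : A * B ≤ 1 := by
    have h6 : (A * B) ^ (1 / 2 : ℝ) ≤ 1 := by
      rw [ENNReal.mul_rpow_of_nonneg _ _ (by norm_num : (0 : ℝ) ≤ 1 / 2)]
      exact h1
    by_contra h7
    rw [not_le] at h7
    have h8 : (1 : ℝ≥0∞) ^ (1 / 2 : ℝ) < (A * B) ^ (1 / 2 : ℝ) :=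
      ENNReal.rpow_lt_rpow h7 (by norm_num)
    rw [ENNReal.one_rpow] at h8
    exact absurd h6 (not_le.2 h8)
  have hgi : Integrable (fun g => a * f g - a ^ 2 * Q g) (gpi ι) :=
    (hfi.const_mul a).sub (hQi.const_mul _)
  have h9 := lt_jensen hgi
  rw [integral_sub (hfi.const_mul a) (hQi.const_mul _), integral_const_mul, integral_const_mul,
    ← hB] at h9
  set m : ℝ := a * ∫ g, f g ∂(gpi ι) - a ^ 2 * ∫ g, Q g ∂(gpi ι) with hm
  have h10 : A * ENNReal.ofReal (Real.exp m) ≤ 1 := (mul_le_mul_right h9 A).trans h5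
  have h11 : -(a * ∫ g, f g ∂(gpi ι)) + a ^ 2 * ∫ g, Q g ∂(gpi ι) = -m := by rw [hm]; ring
  rw [h11, Real.exp_neg, ENNReal.ofReal_inv_of_pos (Real.exp_pos _)]
  exact ENNReal.le_inv_iff_mul_le.2 h10

/-- for `f` with the gradient bounded by `√M` (one-sided tangents) -/
theorem lip_exp0 (pl : GaussPL ι) {F : (ι → ℝ) → ℝ} {G : ι → (ι → ℝ) → ℝ} {M : ℝ} (hF : Lin F)
    (hconv : ∀ z w : ι → ℝ, F z + ∑ i, G i z * w i ≤ F (fun i => z i + w i))
    (hM : ∀ z, ∑ i, G i z ^ 2 ≤ M) {c s a : ℝ} (hcs : c ^ 2 + s ^ 2 = 1) (hs : 0 ≤ s)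
    (ha : 0 ≤ a) (x : ι → ℝ) :
    ∫⁻ y, ENNReal.ofReal (Real.exp (-(a * F (mix c s x y)))) ∂(gpi ι) ≤
      ENNReal.ofReal (Real.exp (-(a * ∫ y, F (mix c s x y) ∂(gpi ι)) + a ^ 2 * (s ^ 2 * M))) := by
  have hc1 : |c| ≤ 1 := abs_le_one_iff_mul_self_le_one.2 (by nlinarith [sq_nonneg s])
  have hs1 : |s| ≤ 1 := abs_le_one_iff_mul_self_le_one.2 (by nlinarith [sq_nonneg c])
  have hL := hF.fix hc1 hs1 x
  have h1 := conv_exp0 pl (f := fun y => F (mix c s x y)) (Q := fun _ => s ^ 2 * M)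
    hL.dom.cont.measurable measurable_const hL.dom.integrable (integrable_const _) (a := a)
    (fun y' y => by
      have h2 := hconv (mix c s x y) (fun i => s * (y' i - y i))
      have h3 : (fun i => mix c s x y i + s * (y' i - y i)) = mix c s x y' := by
        funext i
        unfold mix
        ring
      rw [h3] at h2
      have h4 : F (mix c s x y) - F (mix c s x y') ≤
          ∑ i, G i (mix c s x y) * (s * (y i - y' i)) := by
        have h5 : ∑ i, G i (mix c s x y) * (s * (y i - y' i)) =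
            -∑ i, G i (mix c s x y) * (s * (y' i - y i)) := by
          rw [← Finset.sum_neg_distrib]
          exact Finset.sum_congr rfl fun i _ => by ring
        rw [h5]
        linarith
      have h6 : a * ∑ i, G i (mix c s x y) * (s * (y i - y' i)) ≤
          ∑ i, (a ^ 2 * s ^ 2 * G i (mix c s x y) ^ 2 + (y' i - y i) ^ 2 / 4) := by
        rw [Finset.mul_sum]
        refine Finset.sum_le_sum fun i _ => ?_
        nlinarith [sq_nonneg (a * s * G i (mix c s x y) - (y i - y' i) / 2)]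
      rw [Finset.sum_add_distrib, ← Finset.mul_sum, ← Finset.sum_div] at h6
      have h7 : a ^ 2 * s ^ 2 * ∑ i, G i (mix c s x y) ^ 2 ≤ a ^ 2 * s ^ 2 * M :=
        mul_le_mul_of_nonneg_left (hM _) (by positivity)
      have h8 := mul_le_mul_of_nonneg_left h4 ha
      calc a * (F (mix c s x y) - F (mix c s x y')) ≤ _ := h8
        _ ≤ _ := h6
        _ ≤ a ^ 2 * (s ^ 2 * M) + (∑ i, (y' i - y i) ^ 2) / 4 := by linarith)
  simpa using h1

end Vale.Agent.P146.Lt
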