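import Vale.Agent.P146.Lt.LtPL
import Vale.Agent.P146.Lt.LtConv0

/-!
# P146, Lt: exponential moments of convex functions from Prekopa-Leindler
-/

open MeasureTheory ProbabilityTheory
open scoped ENNReal

namespace Vale.Agent.P146.Lt

open Vale.Agent.P146.Ub.Cv

variable {ι : Type} [Fintype ι]

theorem gaussPL : GaussPL ι := fun hs ht hst u v w hu hv hw h =>
  gauss_pl hs ht hst u v w hu hv hw h

theorem conv_exp {f Q : (ι → ℝ) → ℝ} (hf : Measurable f) (hQ : Measurable Q)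
    (hfi : Integrable f (gpi ι)) (hQi : Integrable Q (gpi ι)) {a : ℝ}
    (h : ∀ x y, a * (f y - f x) ≤ a ^ 2 * Q y + (∑ i, (x i - y i) ^ 2) / 4) :
    ∫⁻ g, ENNReal.ofReal (Real.exp (-(a * f g))) ∂(gpi ι) ≤
      ENNReal.ofReal (Real.exp (-(a * ∫ g, f g ∂(gpi ι)) + a ^ 2 * ∫ g, Q g ∂(gpi ι))) :=
  conv_exp0 gaussPL hf hQ hfi hQi h

/-- for `f` with the gradient bounded by `√M` (one-sided tangents) -/
theorem lip_exp {F : (ι → ℝ) → ℝ} {G : ι → (ι → ℝ) → ℝ} {M : ℝ} (hF : Lin F)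
    (hconv : ∀ z w : ι → ℝ, F z + ∑ i, G i z * w i ≤ F (fun i => z i + w i))
    (hM : ∀ z, ∑ i, G i z ^ 2 ≤ M) {c s a : ℝ} (hcs : c ^ 2 + s ^ 2 = 1) (hs : 0 ≤ s)
    (ha : 0 ≤ a) (x : ι → ℝ) :
    ∫⁻ y, ENNReal.ofReal (Real.exp (-(a * F (mix c s x y)))) ∂(gpi ι) ≤
      ENNReal.ofReal (Real.exp (-(a * ∫ y, F (mix c s x y) ∂(gpi ι)) + a ^ 2 * (s ^ 2 * M))) :=
  lip_exp0 gaussPL hF hconv hM hcs hs ha x

end Vale.Agent.P146.Lt
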