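import Vale.Agent.P146.Lt.LtSK
import Vale.Agent.P146.Sx.Fin5

/-!
# P146, Lt: the lower tail of the free energy at `β ≥ 1`
-/

open MeasureTheory ProbabilityTheory Filter Topology

namespace Vale.Agent.P146.Lt

open Vale.Agent.P146.Sx (pv)

/-- `P(F_n ≤ E F_n - t) ≤ exp (-a t² / n^(99/100))` -/
theorem low_dev {β : ℝ} (hβ : 1 ≤ β) : ∃ a : ℝ, 0 < a ∧ ∀ n : ℕ, 1 ≤ n → ∀ t : ℝ, 0 ≤ t →
    (disorder n).real {g | freeEnergy n β g ≤ ∫ g, freeEnergy n β g ∂(disorder n) - t} ≤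
      Real.exp (-(a * t ^ 2 / (n : ℝ) ^ (99 / 100 : ℝ))) := by
  obtain ⟨C, hC⟩ := Sx.var_upper5 hβ
  have hβ0 : 0 < β := by linarith
  set D : ℝ := √(max C 1 * β ^ 2 * 451 / 2) with hD
  have hC1 : (1 : ℝ) ≤ max C 1 := le_max_right _ _
  have hDpos : 0 < D := Real.sqrt_pos.2 (by positivity)
  refine ⟨1 / (8 * D), by positivity, fun n hn t ht => ?_⟩
  have hn1 : (1 : ℝ) ≤ n := by exact_mod_cast hn
  have hn0 : (0 : ℝ) < n := by linarith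
  have hlog0 : 0 ≤ Real.log n := Real.log_nonneg hn1
  have hlog : 1 + Real.log n ≤ 451 * (n : ℝ) ^ (1 / 450 : ℝ) := by
    have h1 := Real.log_le_rpow_div hn0.le (show (0 : ℝ) < 1 / 450 by norm_num)
    have h2 : (1 : ℝ) ≤ (n : ℝ) ^ (1 / 450 : ℝ) := Real.one_le_rpow hn1 (by norm_num)
    have h3 : (n : ℝ) ^ (1 / 450 : ℝ) / (1 / 450) = 450 * (n : ℝ) ^ (1 / 450 : ℝ) := by ring
    linarith
  have hV : Var[freeEnergy n β; disorder n] ≤
      max C 1 * (n : ℝ) ^ (44 / 45 : ℝ) * (1 + Real.log n) := by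
    refine (hC n hn).trans ?_
    gcongr
    exact le_max_left _ _
  have hVpos : 0 < max C 1 * (n : ℝ) ^ (44 / 45 : ℝ) * (1 + Real.log n) := by positivity
  have h := sk_low hβ0 hn hVpos hV ht
  refine h.trans (Real.exp_le_exp.2 (neg_le_neg ?_))
  have hsq : √(max C 1 * (n : ℝ) ^ (44 / 45 : ℝ) * (1 + Real.log n) * (β ^ 2 * n / 2)) ≤
      D * (n : ℝ) ^ (99 / 100 : ℝ) := by
    have e1 : (n : ℝ) ^ (44 / 45 : ℝ) * (n : ℝ) ^ (1 / 450 : ℝ) * n =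
        ((n : ℝ) ^ (99 / 100 : ℝ)) ^ 2 := by
      rw [← Real.rpow_natCast, ← Real.rpow_mul hn0.le, ← Real.rpow_add hn0,
        ← Real.rpow_add_one hn0.ne']
      norm_num
    have e2 : max C 1 * (n : ℝ) ^ (44 / 45 : ℝ) * (1 + Real.log n) * (β ^ 2 * n / 2) ≤
        (D * (n : ℝ) ^ (99 / 100 : ℝ)) ^ 2 := by
      have e3 : D ^ 2 = max C 1 * β ^ 2 * 451 / 2 := Real.sq_sqrt (by positivity)
      rw [mul_pow, e3, ← e1]
      calc _ ≤ max C 1 * (n : ℝ) ^ (44 / 45 : ℝ) * (451 * (n : ℝ) ^ (1 / 450 : ℝ)) *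
            (β ^ 2 * n / 2) := by gcongr
        _ = _ := by ring
    calc _ ≤ √((D * (n : ℝ) ^ (99 / 100 : ℝ)) ^ 2) := Real.sqrt_le_sqrt e2
      _ = _ := Real.sqrt_sq (by positivity)
  have hspos : 0 < √(max C 1 * (n : ℝ) ^ (44 / 45 : ℝ) * (1 + Real.log n) * (β ^ 2 * n / 2)) :=
    Real.sqrt_pos.2 (by positivity)
  calc 1 / (8 * D) * t ^ 2 / (n : ℝ) ^ (99 / 100 : ℝ)
      = t ^ 2 / (8 * (D * (n : ℝ) ^ (99 / 100 : ℝ))) := by field_simp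
    _ ≤ _ := by gcongr

/-- `P(F_n ≤ n (p - s)) ≤ exp (-a s² n^(101/100))` for `s ≥ n^(-1/40)` -/
theorem low_dev_large {β : ℝ} (hβ : 1 ≤ β) : ∃ a : ℝ, 0 < a ∧
    (∀ n : ℕ, 1 ≤ n → ∀ t : ℝ, 0 ≤ t →
      (disorder n).real {g | freeEnergy n β g ≤ ∫ g, freeEnergy n β g ∂(disorder n) - t} ≤
        Real.exp (-(a * t ^ 2 / (n : ℝ) ^ (99 / 100 : ℝ)))) ∧
    ∀ᶠ n : ℕ in atTop, ∀ s : ℝ, (n : ℝ) ^ (-(1 / 40) : ℝ) ≤ s →
      (disorder n).real {g | freeEnergy n β g ≤ n * (pv β - s)} ≤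
        Real.exp (-(a * s ^ 2 * (n : ℝ) ^ (101 / 100 : ℝ))) := by
  obtain ⟨a, ha, h⟩ := low_dev hβ
  obtain ⟨C, hC1, -, -, hlow⟩ := Sx.moment hβ
  refine ⟨a / 4, by positivity, fun n hn t ht => (h n hn t ht).trans ?_, ?_⟩
  · refine Real.exp_le_exp.2 (neg_le_neg ?_)
    have hn0 : (0 : ℝ) ≤ n := n.cast_nonneg
    gcongr
    linarith
  · have hev : ∀ᶠ n : ℕ in atTop, 2 * C ≤ (n : ℝ) ^ (1 / 360 : ℝ) :=
      ((tendsto_rpow_atTop (by norm_num : (0 : ℝ) < 1 / 360)).comp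
        tendsto_natCast_atTop_atTop).eventually_ge_atTop _
    filter_upwards [hev, eventually_ge_atTop 1] with n hn hn1 s hs
    have hn1' : (1 : ℝ) ≤ n := by exact_mod_cast hn1
    have hn0 : (0 : ℝ) < n := by linarith
    have hs0 : 0 < s := lt_of_lt_of_le (by positivity) hs
    have hkey : C * (n : ℝ) ^ (35 / 36 : ℝ) ≤ n * s / 2 := by
      have e1 : (n : ℝ) * (n : ℝ) ^ (-(1 / 40) : ℝ) =
          (n : ℝ) ^ (1 / 360 : ℝ) * (n : ℝ) ^ (35 / 36 : ℝ) := by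
        rw [← Real.rpow_add hn0, ← Real.rpow_one_add' hn0.le (by norm_num)]
        norm_num
      have e2 : 2 * C * (n : ℝ) ^ (35 / 36 : ℝ) ≤
          (n : ℝ) ^ (1 / 360 : ℝ) * (n : ℝ) ^ (35 / 36 : ℝ) :=
        mul_le_mul_of_nonneg_right hn (by positivity)
      have e3 : (n : ℝ) * (n : ℝ) ^ (-(1 / 40) : ℝ) ≤ n * s :=
        mul_le_mul_of_nonneg_left hs hn0.le
      linarith
    have hsub : (disorder n).real {g | freeEnergy n β g ≤ n * (pv β - s)} ≤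
        (disorder n).real {g | freeEnergy n β g ≤
          ∫ g, freeEnergy n β g ∂(disorder n) - n * s / 2} := by
      refine measureReal_mono (fun g hg => ?_)
      have h1 : freeEnergy n β g ≤ n * (pv β - s) := hg
      have h2 := hlow n hn1
      show freeEnergy n β g ≤ ∫ g, freeEnergy n β g ∂(disorder n) - n * s / 2
      linarith
    refine hsub.trans ((h n hn1 (n * s / 2) (by positivity)).trans ?_)
    refine Real.exp_le_exp.2 (neg_le_neg (le_of_eq ?_))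
    have e4 : (n : ℝ) ^ (101 / 100 : ℝ) * (n : ℝ) ^ (99 / 100 : ℝ) = (n : ℝ) ^ 2 := by
      rw [← Real.rpow_add hn0, ← Real.rpow_natCast]
      norm_num
    have hp : (0 : ℝ) < (n : ℝ) ^ (99 / 100 : ℝ) := by positivity
    rw [eq_div_iff hp.ne']
    calc a / 4 * s ^ 2 * (n : ℝ) ^ (101 / 100 : ℝ) * (n : ℝ) ^ (99 / 100 : ℝ)
        = a / 4 * s ^ 2 * ((n : ℝ) ^ (101 / 100 : ℝ) * (n : ℝ) ^ (99 / 100 : ℝ)) := by ring
      _ = _ := by rw [e4]; ring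

end Vale.Agent.P146.Lt
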