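import Vale.Agent.P146.Lt.LtConv
import Vale.Agent.P146.Lt.LtBes

/-!
# P146, Lt: the Laplace transform of a convex function of a Gaussian vector on the negative side
-/

open MeasureTheory ProbabilityTheory
open scoped ENNReal

namespace Vale.Agent.P146.Lt

open Vale.Agent.P146.Ub.Cv

variable {ι : Type} [Fintype ι]

/-- the bound with the two scales -/
theorem low_two [DecidableEq ι] {F : (ι → ℝ) → ℝ} {G H : ι → (ι → ℝ) → ℝ} {B M V : ℝ}
    (h : Reg F G H B) (hF : Lin F) (hG : ∀ i, Lin (G i))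
    (hconv : ∀ z w : ι → ℝ, F z + ∑ i, G i z * w i ≤ F (fun i => z i + w i))
    (hM : ∀ z, ∑ i, G i z ^ 2 ≤ M)
    (hV : ∫ g, F g ^ 2 ∂(gpi ι) - (∫ g, F g ∂(gpi ι)) ^ 2 ≤ V) {c s : ℝ}
    (hcs : c ^ 2 + s ^ 2 = 1) (hs : 0 < s) {a : ℝ} (ha : 0 ≤ a) :
    ∫⁻ g, ENNReal.ofReal (Real.exp (-(a * F g))) ∂(gpi ι) ≤
      ENNReal.ofReal (Real.exp (-(a * ∫ g, F g ∂(gpi ι)) + a ^ 2 * (s ^ 2 * M + V / s ^ 2))) := by
  have hc1 : |c| ≤ 1 := by
    rw [← sq_le_one_iff_abs_le_one]; nlinarith [sq_nonneg s]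
  have hs1 : |s| ≤ 1 := by
    rw [← sq_le_one_iff_abs_le_one]; nlinarith [sq_nonneg c]
  have hmF : Measurable F := hF.cont.measurable
  have hmG : ∀ i, Measurable (G i) := fun i => (hG i).cont.measurable
  have hmix := mp_mix (ι := ι) hcs
  -- the smoothed function
  set Fc : (ι → ℝ) → ℝ := fun x => ∫ y, F (mix c s x y) ∂(gpi ι) with hFc
  set D : ι → (ι → ℝ) → ℝ := fun i x => c * ∫ y, G i (mix c s x y) ∂(gpi ι) with hD
  have sF : StronglyMeasurable (fun p : (ι → ℝ) × (ι → ℝ) => F (mix c s p.1 p.2)) :=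
    (hmF.comp (measurable_mix c s)).stronglyMeasurable
  have sG : ∀ i, StronglyMeasurable (fun p : (ι → ℝ) × (ι → ℝ) => G i (mix c s p.1 p.2)) :=
    fun i => ((hmG i).comp (measurable_mix c s)).stronglyMeasurable
  have mFc : Measurable Fc := (sF.integral_prod_right (ν := gpi ι)).measurable
  have mD : ∀ i, Measurable (D i) := fun i =>
    (((sG i).integral_prod_right (ν := gpi ι)).measurable).const_mul c
  have iFc : Integrable Fc (gpi ι) := (hF.mix2 hcs).1.integral_prod_left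
  have hint : ∫ x, Fc x ∂(gpi ι) = ∫ g, F g ∂(gpi ι) := by
    rw [hFc, ← integral_prod _ (hF.mix2 hcs).1]
    exact int_mix hcs hF.cont
  have iFx : ∀ x, Integrable (fun y => F (mix c s x y)) (gpi ι) := fun x =>
    (hF.fix hc1 hs1 x).dom.integrable
  have iGx : ∀ i x, Integrable (fun y => G i (mix c s x y)) (gpi ι) := fun i x =>
    ((hG i).fix hc1 hs1 x).dom.integrable
  have hDb : ∀ i x, |D i x| ≤ B := by
    intro i x
    have hb : |∫ y, G i (mix c s x y) ∂(gpi ι)| ≤ B := by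
      have h1 := norm_integral_le_of_norm_le_const (μ := gpi ι)
        (f := fun y => G i (mix c s x y)) (C := B)
        (Filter.Eventually.of_forall fun y => h.G_bd i _)
      simpa using h1
    rw [hD]
    simp only
    rw [abs_mul]
    calc |c| * |∫ y, G i (mix c s x y) ∂(gpi ι)| ≤ 1 * |∫ y, G i (mix c s x y) ∂(gpi ι)| :=
          mul_le_mul_of_nonneg_right hc1 (abs_nonneg _)
      _ ≤ B := by rw [one_mul]; exact hb
  set Q : (ι → ℝ) → ℝ := fun x => ∑ i, D i x ^ 2 with hQ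
  have mQ : Measurable Q := by
    rw [hQ]
    exact Finset.measurable_sum _ fun i _ => (mD i).pow_const 2
  have iQ : Integrable Q (gpi ι) := by
    rw [hQ]
    refine integrable_finset_sum _ fun i _ => ?_
    refine Integrable.of_bound ((mD i).pow_const 2).aestronglyMeasurable (B ^ 2)
      (Filter.Eventually.of_forall fun x => ?_)
    rw [Real.norm_eq_abs, abs_of_nonneg (sq_nonneg _), ← sq_abs]
    exact pow_le_pow_left₀ (abs_nonneg _) (hDb i x) 2
  -- tangents of the smoothed function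
  have tan : ∀ x y : ι → ℝ, Fc y + ∑ i, D i y * (x i - y i) ≤ Fc x := by
    intro x y
    have h1 : ∀ z, F (mix c s y z) + ∑ i, G i (mix c s y z) * (c * (x i - y i)) ≤
        F (mix c s x z) := by
      intro z
      have h2 := hconv (mix c s y z) (fun i => c * (x i - y i))
      have e : (fun i => mix c s y z i + c * (x i - y i)) = mix c s x z := by
        funext i; simp only [mix_apply]; ring
      rw [e] at h2
      exact h2
    have i1 : Integrable (fun z => ∑ i, G i (mix c s y z) * (c * (x i - y i))) (gpi ι) :=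
      integrable_finset_sum _ fun i _ => (iGx i y).mul_const _
    have h3 := integral_mono ((iFx y).add i1) (iFx x) h1
    simp only [Pi.add_apply] at h3
    rw [integral_add (iFx y) i1, integral_finset_sum _ fun i _ => (iGx i y).mul_const _] at h3
    refine le_trans (le_of_eq ?_) h3
    rw [hFc, hD]
    congr 1
    refine Finset.sum_congr rfl fun i _ => ?_
    rw [integral_mul_const]
    ring
  have hhyp : ∀ x y, a * (Fc y - Fc x) ≤ a ^ 2 * Q y + (∑ i, (x i - y i) ^ 2) / 4 := by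
    intro x y
    have h1 := mul_le_mul_of_nonneg_left (tan x y) ha
    have h2 : ∀ i, -(a * (D i y * (x i - y i))) ≤ a ^ 2 * D i y ^ 2 + (x i - y i) ^ 2 / 4 := by
      intro i
      nlinarith [sq_nonneg (a * D i y + (x i - y i) / 2)]
    have h3 := Finset.sum_le_sum fun i (_ : i ∈ Finset.univ) => h2 i
    rw [Finset.sum_neg_distrib, ← Finset.mul_sum, Finset.sum_add_distrib, ← Finset.mul_sum,
      ← Finset.sum_div] at h3
    rw [hQ]
    simp only
    nlinarith
  have k1 := conv_exp mFc mQ iFc iQ (a := a) hhyp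
  -- the first step
  have k2 : ∫⁻ g, ENNReal.ofReal (Real.exp (-(a * F g))) ∂(gpi ι) =
      ∫⁻ x, ∫⁻ y, ENNReal.ofReal (Real.exp (-(a * F (mix c s x y)))) ∂(gpi ι) ∂(gpi ι) := by
    have m1 : Measurable (fun g => ENNReal.ofReal (Real.exp (-(a * F g)))) :=
      (Real.measurable_exp.comp (hmF.const_mul a).neg).ennreal_ofReal
    rw [← hmix.lintegral_comp m1]
    exact lintegral_prod _ (m1.comp hmix.measurable).aemeasurable
  have k3 : ∀ x, ∫⁻ y, ENNReal.ofReal (Real.exp (-(a * F (mix c s x y)))) ∂(gpi ι) ≤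
      ENNReal.ofReal (Real.exp (a ^ 2 * (s ^ 2 * M))) *
        ENNReal.ofReal (Real.exp (-(a * Fc x))) := by
    intro x
    refine (lip_exp hF hconv hM hcs hs.le ha x).trans (le_of_eq ?_)
    rw [← ENNReal.ofReal_mul (Real.exp_pos _).le, ← Real.exp_add]
    congr 2
    ring
  have k4 : ∫ x, Q x ∂(gpi ι) ≤ V / s ^ 2 := by
    refine (grad_le h hF hG hcs hs).trans ?_
    exact div_le_div_of_nonneg_right hV (by positivity)
  rw [k2]
  refine (lintegral_mono k3).trans ?_
  have m2 : Measurable (fun x => ENNReal.ofReal (Real.exp (-(a * Fc x)))) :=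
    (Real.measurable_exp.comp (mFc.const_mul a).neg).ennreal_ofReal
  rw [lintegral_const_mul _ m2]
  refine (mul_le_mul_right k1 _).trans ?_
  rw [← ENNReal.ofReal_mul (Real.exp_pos _).le, ← Real.exp_add, hint]
  refine ENNReal.ofReal_le_ofReal (Real.exp_le_exp.2 ?_)
  have := mul_le_mul_of_nonneg_left k4 (sq_nonneg a)
  nlinarith

theorem low_mgf [DecidableEq ι] {F : (ι → ℝ) → ℝ} {G H : ι → (ι → ℝ) → ℝ} {B M V : ℝ}
    (h : Reg F G H B) (hF : Lin F) (hG : ∀ i, Lin (G i))
    (hconv : ∀ z w : ι → ℝ, F z + ∑ i, G i z * w i ≤ F (fun i => z i + w i))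
    (hM : ∀ z, ∑ i, G i z ^ 2 ≤ M) (hM0 : 0 < M) (hV0 : 0 < V)
    (hV : ∫ g, F g ^ 2 ∂(gpi ι) - (∫ g, F g ∂(gpi ι)) ^ 2 ≤ V) {a : ℝ} (ha : 0 ≤ a) :
    ∫⁻ g, ENNReal.ofReal (Real.exp (-(a * F g))) ∂(gpi ι) ≤
      ENNReal.ofReal (Real.exp (-(a * ∫ g, F g ∂(gpi ι)) + 2 * a ^ 2 * √(V * M))) := by
  rcases le_or_gt V M with hVM | hVM
  · -- `s² = √(V / M)`
    set r : ℝ := √V / √M with hr
    have hsM : 0 < √M := Real.sqrt_pos.2 hM0
    have hsV : 0 < √V := Real.sqrt_pos.2 hV0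
    have hr0 : 0 < r := by positivity
    have hr1 : r ≤ 1 := by
      rw [hr, div_le_one hsM]
      exact Real.sqrt_le_sqrt hVM
    have hs2 : √r ^ 2 = r := Real.sq_sqrt hr0.le
    have hc2 : √(1 - r) ^ 2 = 1 - r := Real.sq_sqrt (by linarith)
    have k := low_two h hF hG hconv hM hV (c := √(1 - r)) (s := √r)
      (by rw [hs2, hc2]; ring) (Real.sqrt_pos.2 hr0) ha
    refine k.trans (ENNReal.ofReal_le_ofReal (Real.exp_le_exp.2 (le_of_eq ?_)))
    rw [hs2]
    have e1 : r * M = √(V * M) := by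
      rw [hr, Real.sqrt_mul hV0.le, div_mul_eq_mul_div, div_eq_iff hsM.ne', mul_assoc,
        Real.mul_self_sqrt hM0.le]
    have e2 : V / r = √(V * M) := by
      rw [hr, Real.sqrt_mul hV0.le, div_div_eq_mul_div, div_eq_iff hsV.ne']
      nth_rewrite 1 [← Real.mul_self_sqrt hV0.le]
      ring
    rw [e1, e2]
    ring
  · have k := lip_exp hF hconv hM (c := 0) (s := 1) (by norm_num) zero_le_one ha 0
    have e : ∀ y : ι → ℝ, mix 0 1 (0 : ι → ℝ) y = y := by
      intro y; funext i; simp [mix_apply]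
    simp only [e] at k
    refine k.trans (ENNReal.ofReal_le_ofReal (Real.exp_le_exp.2 ?_))
    have h1 : M ≤ √(V * M) := by
      refine Real.le_sqrt_of_sq_le ?_
      nlinarith
    have h2 : a ^ 2 * M ≤ a ^ 2 * √(V * M) := mul_le_mul_of_nonneg_left h1 (sq_nonneg a)
    have h3 : 0 ≤ a ^ 2 * √(V * M) := by positivity
    nlinarith

end Vale.Agent.P146.Lt
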